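import Vale.Agent.P366.CL.DefsE
import Vale.Agent.P366.H745.CH.Stmt

/-! Initial data foliated by the parallel surfaces of a convex body, given by its support function:
definition, in every space dimension `n`. -/

open MeasureTheory Metric Filter Topology Set
open scoped ContDiff ENNReal

noncomputable section
namespace Vale.Agent.P366.CL

open Vale.Agent.P366.Convex (ray)

variable {n : ℕ}

/-- The exterior `D` is the outside of the open convex body with the support function `h`, on it
`λ` is the distance of the body, `λ = s` at `∇h(x) + s x`, and the metric is `g = δ + W dλ ⊗ dλ`: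
the leaves `λ = s` have the metric of the parallel surfaces in Euclidean space, and `√(1 + W)` is
the lapse of the foliation. -/
structure IsLeaves (h lam W : Stmt.E n → ℝ) (D : Stmt.Exterior n) : Prop where
  dom : ∀ y, D.F y < 0 ↔ ∀ x : Stmt.E n, Stmt.len x = 1 → ∑ i, x i * y i < h x
  smL : ∀ y, 0 ≤ D.F y → ContDiffAt ℝ ∞ lam y
  eqL : ∀ x s, Stmt.len x = 1 → 0 ≤ s → lam (ray h x s) = s
  smW : ∀ y, 0 ≤ D.F y → ContDiffAt ℝ ∞ W y
  met : ∀ y, 0 ≤ D.F y → ∀ i j, D.g y i j =
    (if i = j then 1 else 0) + W y * Stmt.pd i lam y * Stmt.pd j lam y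

end Vale.Agent.P366.CL
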