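import Vale.Agent.P366.CL.Defs
import Vale.Agent.P366.H896.G.MainH

/-! Data foliated by the parallel surfaces of a convex body: the flux field and the reference
Kerr-Schild spacetime. -/

open MeasureTheory Metric Filter Topology Set
open scoped ContDiff ENNReal

noncomputable section
namespace Vale.Agent.P366.CL

open Vale.Agent.P366 (pd E flux)
open Vale.Agent.P366.Kerr (NullCone Psi pt sp ksL IsKS IsGraph IsSliceL indG indK)

variable {n : ℕ}

/-- The flux field. -/
def XL (lam W : E n → ℝ) (K : Stmt.Field n) (i : Fin n) (y : E n) : ℝ :=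
  (W y / (1 + W y) + kap lam K y ^ 2) / 2 * lapL lam y * Stmt.pd i lam y - acc lam W i y -
    kap lam K y * (col lam K i y - nn lam K y * Stmt.pd i lam y)

/-- The null covector field `l = dt + dλ` of the reference spacetime. -/
def lL (lam : E n → ℝ) (a : Fin (n + 1)) (p : E (n + 1)) : ℝ :=
  Fin.cons (α := fun _ => ℝ) 1 (fun i => Stmt.pd i lam (sp p)) a

/-- The function `V = W` of the reference spacetime. -/
def VL (W : E n → ℝ) (p : E (n + 1)) : ℝ := W (sp p)

end Vale.Agent.P366.CL
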