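import Vale.Agent.P366.CL.Fake
import Vale.Agent.P366.CL.X
import Vale.Agent.P366.H474.L.C

/-! Data foliated by parallel surfaces: the flux of the flux field at infinity. -/

open MeasureTheory Metric Filter Topology Set
open scoped ContDiff ENNReal

noncomputable section
namespace Vale.Agent.P366.CL

open Vale.Agent.P366 (pd E flux)
open Vale.Agent.P366.H353.N (kd hs lap SI om)
open Vale.Agent.P366.KSN (BO BO_th)
open Vale.Agent.P366.KSN.X5 (DP cdd cd_pd cd_hs)
open Vale.Agent.P366.H474.L (Ef Ef_cont)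
open Vale.Agent.P366.H474.W (flux_congr flux_sub flux_neg flux_sphInt)
open Vale.Agent.P366.Kerr (NullCone Psi pt sp IsSlice)

variable {n : ℕ} {C : NullCone n} {lam W : E n → ℝ} {D : Stmt.Exterior n} {R q : ℝ} {y : E n}

theorem spd_cd {F : E n → ℝ} (hF : ContDiffAt ℝ ∞ F y) (i : Fin n) :
    ContDiffAt ℝ ∞ (Stmt.pd i F) y := by
  have hev : ∀ᶠ z in 𝓝 y, ContDiffAt ℝ 1 F z :=
    (hF.of_le (by norm_cast)).eventually (by simp)
  refine (cd_pd hF i).congr_of_eventuallyEq ?_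
  filter_upwards [hev] with z hz
  exact Vale.Agent.P366.Bridge.pd_eq (hz.differentiableAt (by simp)) i

theorem spd_eq {F : E n → ℝ} (hF : ContDiffAt ℝ ∞ F y) (i : Fin n) :
    Stmt.pd i F y = pd i F y := Vale.Agent.P366.Bridge.pd_eq (cdd hF) i

theorem lapL_eq (hl : ContDiffAt ℝ ∞ lam y) : lapL lam y = lap lam y :=
  Finset.sum_congr rfl fun i _ => KSN.spd2_eq hl i i

theorem lapL_cd (hl : ContDiffAt ℝ ∞ lam y) : ContDiffAt ℝ ∞ (lapL lam) y :=
  ContDiffAt.sum fun i _ => spd_cd (spd_cd hl i) i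

theorem col_cd (hl : ContDiffAt ℝ ∞ lam y) (i : Fin n) : ContDiffAt ℝ ∞ (col lam D.K i) y :=
  ContDiffAt.sum fun j _ => ((D.smooth i j).2.contDiffAt).mul (spd_cd hl j)

theorem nn_cd (hl : ContDiffAt ℝ ∞ lam y) : ContDiffAt ℝ ∞ (nn lam D.K) y :=
  ContDiffAt.sum fun i _ => (col_cd hl i).mul (spd_cd hl i)

theorem kap_cd (hl : ContDiffAt ℝ ∞ lam y) (h0 : lapL lam y ≠ 0) :
    ContDiffAt ℝ ∞ (kap lam D.K) y :=
  ((ContDiffAt.sum fun i _ => (D.smooth i i).2.contDiffAt).sub (nn_cd hl)).div (lapL_cd hl) h0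

theorem grd_cd (hl : ContDiffAt ℝ ∞ lam y) (hW : ContDiffAt ℝ ∞ W y) (i : Fin n) :
    ContDiffAt ℝ ∞ (grd lam W i) y :=
  (spd_cd hW i).sub ((ContDiffAt.sum fun j _ => (spd_cd hW j).mul (spd_cd hl j)).mul (spd_cd hl i))

theorem acc_cd (hl : ContDiffAt ℝ ∞ lam y) (hW : ContDiffAt ℝ ∞ W y) (h1 : 1 + W y ≠ 0)
    (i : Fin n) : ContDiffAt ℝ ∞ (acc lam W i) y :=
  (grd_cd hl hW i).div (contDiffAt_const.mul (contDiffAt_const.add hW))
    (mul_ne_zero two_ne_zero h1)

/-- the flux field is smooth -/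
theorem XL_cd (hl : ContDiffAt ℝ ∞ lam y) (hW : ContDiffAt ℝ ∞ W y) (h1 : 1 + W y ≠ 0)
    (h0 : lapL lam y ≠ 0) (i : Fin n) : ContDiffAt ℝ ∞ (XL lam W D.K i) y :=
  (((((hW.div (contDiffAt_const.add hW) h1).add ((kap_cd hl h0).pow 2)).div_const 2).mul
    (lapL_cd hl)).mul (spd_cd hl i)).sub (acc_cd hl hW h1 i) |>.sub
      ((kap_cd hl h0).mul ((col_cd hl i).sub ((nn_cd hl).mul (spd_cd hl i))))

/-- the facts at interior points -/
structure Pt (lam W : E n → ℝ) (D : Stmt.Exterior n) (y : E n) : Prop where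
  hF : 0 ≤ D.F y
  cl : ContDiffAt ℝ ∞ lam y
  cW : ContDiffAt ℝ ∞ W y
  gr : ∑ i, pd i lam y ^ 2 = 1
  eik : ∀ j, ∑ i, pd i lam y * hs lam i j y = 0
  g : ∀ i j, D.g y i j = kd i j + W y * pd i lam y * pd j lam y
  dg : ∀ k i j, Stmt.pd k (fun z => D.g z i j) y = pd k W y * pd i lam y * pd j lam y +
    W y * hs lam k i y * pd j lam y + W y * pd i lam y * hs lam k j y

theorem pt_of (hL : IsLeafExt C lam W D) (hy : 0 < D.F y) : Pt lam W D y := by
  obtain ⟨f, D', hF, hS⟩ := exists_slice hL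
  have hev : ∀ᶠ z in 𝓝 y, 0 ≤ D.F z :=
    ((D.dom.1.continuous.continuousAt).eventually (lt_mem_nhds hy)).mono fun z hz => le_of_lt hz
  have hgr : ∀ᶠ z in 𝓝 y, ∑ i, pd i lam z ^ 2 = 1 := KSN.gsq_lam hS (by rw [hF]; exact hy)
  have cl := hL.smL y hy.le
  have cW := hL.smW y hy.le
  have hg : ∀ z, 0 ≤ D.F z → ∀ i j, D.g z i j = kd i j + W z * pd i lam z * pd j lam z := by
    intro z hz i j
    rw [hL.met z hz, spd_eq (hL.smL z hz), spd_eq (hL.smL z hz)]
    rfl
  refine ⟨hy.le, cl, cW, hgr.self_of_nhds, fun j => KSN.X5.eik cl hgr j, hg y hy.le,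
    fun k i j => ?_⟩
  rw [spd_eq (D.smooth i j).1.contDiffAt]
  have e1 : (fun z => D.g z i j) =ᶠ[𝓝 y] fun z => kd i j + W z * pd i lam z * pd j lam z :=
    hev.mono fun z hz => hg z hz i j
  rw [Vale.Agent.P366.pd_congr e1 k]
  have e2 : DP k (fun z => kd i j + W z * pd i lam z * pd j lam z)
      (0 + ((pd k W y * pd i lam y + W y * hs lam k i y) * pd j lam y +
        W y * pd i lam y * hs lam k j y)) y :=
    (DP.const (kd i j)).add (((DP.of (cdd cW)).mul (DP.of (cdd (cd_pd cl i)))).mul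
      (DP.of (cdd (cd_pd cl j))))
  rw [e2.2]
  ring

namespace Pt

variable (P : Pt lam W D y)
include P

theorem eik' (j : Fin n) : ∑ i, hs lam j i y * pd i lam y = 0 := by
  rw [← P.eik j]
  exact Finset.sum_congr rfl fun i _ => by rw [KSN.X5.hs_symm' P.cl j i, mul_comm]

theorem sum_dg (i : Fin n) : ∑ j, Stmt.pd j (fun z => D.g z i j) y =
    (∑ j, pd j W y * pd j lam y) * pd i lam y + W y * lap lam y * pd i lam y := by
  have e : ∀ j, Stmt.pd j (fun z => D.g z i j) y = pd j W y * pd j lam y * pd i lam y +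
      W y * (pd j lam y * hs lam j i y) + W y * pd i lam y * hs lam j j y := fun j => by
    rw [P.dg j i j]; ring
  simp only [e, Finset.sum_add_distrib, ← Finset.sum_mul, ← Finset.mul_sum, P.eik i, mul_zero]
  unfold H353.N.lap
  ring

theorem sum_dg' (i : Fin n) : ∑ j, Stmt.pd i (fun z => D.g z j j) y = pd i W y := by
  have e : ∀ j, Stmt.pd i (fun z => D.g z j j) y = pd i W y * pd j lam y ^ 2 +
      2 * W y * (hs lam i j y * pd j lam y) := fun j => by
    rw [P.dg i j j]; ring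
  simp only [e, Finset.sum_add_distrib, ← Finset.mul_sum, P.eik' i, P.gr, mul_zero, mul_one,
    add_zero]

theorem W_eq : W y = ∑ i, (D.g y i i - if i = i then 1 else 0) := by
  have e : ∀ i, (D.g y i i - if i = i then 1 else 0) = W y * pd i lam y ^ 2 := fun i => by
    rw [P.g i i]
    unfold kd
    ring
  rw [Finset.sum_congr rfl fun i _ => e i, ← Finset.mul_sum, P.gr, mul_one]

theorem col_eq (i : Fin n) : col lam D.K i y = ∑ j, D.K y i j * pd j lam y :=
  Finset.sum_congr rfl fun j _ => by rw [spd_eq P.cl]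

theorem nn_eq : nn lam D.K y = ∑ i, col lam D.K i y * pd i lam y :=
  Finset.sum_congr rfl fun j _ => by rw [spd_eq P.cl]

theorem grd_eq (i : Fin n) : grd lam W i y =
    pd i W y - (∑ j, pd j W y * pd j lam y) * pd i lam y := by
  unfold grd
  rw [spd_eq P.cl, spd_eq P.cW]
  congr 2
  exact Finset.sum_congr rfl fun j _ => by rw [spd_eq P.cl, spd_eq P.cW]

theorem Ef_eq (i : Fin n) : Ef D i y = (W y * lap lam y * pd i lam y - grd lam W i y) / 2 := by
  unfold Ef
  rw [Finset.sum_sub_distrib, P.sum_dg, P.sum_dg', P.grd_eq]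
  ring

theorem XL_sub (h1 : 1 + W y ≠ 0) (i : Fin n) : XL lam W D.K i y - Ef D i y =
    kap lam D.K y * kap lam D.K y * (lap lam y * pd i lam y) / 2 -
      W y * W y * (1 / (1 + W y) * (lap lam y * pd i lam y)) / 2 +
      W y * grd lam W i y * (1 / (1 + W y)) / 2 -
      kap lam D.K y * (col lam D.K i y - nn lam D.K y * pd i lam y) := by
  rw [P.Ef_eq]
  unfold XL acc
  rw [lapL_eq P.cl, spd_eq P.cl]
  field_simp
  ring

end Pt

theorem BO_len : BO (-1) fun y : E n => ‖y‖ :=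
  ⟨1, 1, zero_le_one, le_rfl, fun y _ => by rw [neg_neg, Real.rpow_one, abs_norm, one_mul]⟩

/-- the mean curvature of the leaves far out -/
theorem BO_inv_lap [hn : Fact (3 ≤ n)] (hL : IsLeafExt C lam W D) :
    (∃ R : ℝ, ∀ y : E n, R < ‖y‖ → 0 < lap lam y) ∧ BO (-1) fun y => 1 / lap lam y := by
  obtain ⟨f, D', hF, hS⟩ := exists_slice hL
  have h3 : (3 : ℝ) ≤ n := by exact_mod_cast hn.out
  have hb : BO (2 + -1) fun y => (lap lam y - (n - 1) / ‖y‖) * ‖y‖ := (KSN.BO_lap hS).mul BO_len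
  obtain ⟨R, hR, h⟩ := hb.small (by norm_num) (ε := 1 / 2) (by norm_num)
  have key : ∀ y : E n, R < ‖y‖ → 1 ≤ lap lam y * ‖y‖ := by
    intro y hy
    have hy0 : 0 < ‖y‖ := one_pos.trans_le (hR.trans hy.le)
    have h1 := (abs_le.1 (h y hy)).1
    have e : (lap lam y - (n - 1) / ‖y‖) * ‖y‖ = lap lam y * ‖y‖ - (n - 1) := by
      field_simp
    rw [e] at h1
    linarith
  have pos : ∀ y : E n, R < ‖y‖ → 0 < lap lam y := by
    intro y hy
    have hy0 : 0 < ‖y‖ := one_pos.trans_le (hR.trans hy.le)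
    exact pos_of_mul_pos_left (one_pos.trans_le (key y hy)) hy0.le
  refine ⟨⟨R, pos⟩, BO_len.le (R := R) fun y hy => ?_⟩
  rw [abs_norm, abs_of_pos (one_div_pos.2 (pos y hy)), div_le_iff₀ (pos y hy), mul_comm]
  exact key y hy

/-- **the flux at infinity is the energy** -/
theorem flux_XL [hn : Fact (3 ≤ n)] (hL : IsLeafExt C lam W D) (hAF : D.IsAF) {m : ℝ}
    (hm : D.IsEnergy m) :
    Tendsto (flux (XL lam W D.K)) atTop (𝓝 (((n : ℝ) - 1) * om n * m)) := by
  obtain ⟨f, D', hF', hS⟩ := exists_slice hL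
  obtain ⟨⟨R1, hR1⟩, binv⟩ := BO_inv_lap hL
  obtain ⟨q, hq, af⟩ := hAF
  obtain ⟨R0, hR0⟩ := D.dom.2.2.2
  have h3 : (3 : ℝ) ≤ n := by exact_mod_cast hn.out
  have i0 : Fin n := ⟨0, by have := hn.out; omega⟩
  have hq0 : 0 < q := by linarith
  have hPt : ∀ y : E n, R0 < ‖y‖ → Pt lam W D y := fun y hy => pt_of hL (hR0 y hy)
  have bW : BO q W := (BO.sum Finset.univ fun i =>
    BO.of_bigO (af i i i0 i0).1).congr (R := R0) fun y hy => (hPt y hy).W_eq
  have bdW : ∀ k, BO (q + 1) (pd k W) := fun k => (BO.sum Finset.univ fun i =>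
    BO.of_bigO (af i i k i0).2.1).congr (R := R0) fun y hy => ((hPt y hy).sum_dg' k).symm
  have bl : ∀ i, BO 0 (pd i lam) := KSN.BO_n hS
  have blap : BO 1 (lap lam) := KSN.BO_lap1 hS
  have bK : ∀ i j, BO (q + 1) fun y => D.K y i j := fun i j => BO.of_bigO (af i j i0 i0).2.2.2.1
  have bcol : ∀ i, BO (q + 1) (col lam D.K i) := fun i =>
    (BO.sum Finset.univ fun j => (bK i j).mulb (bl j)).congr (R := R0)
      fun y hy => (hPt y hy).col_eq i
  have bnn : BO (q + 1) (nn lam D.K) :=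
    (BO.sum Finset.univ fun i => (bcol i).mulb (bl i)).congr (R := R0)
      fun y hy => (hPt y hy).nn_eq
  have bkap : BO q (kap lam D.K) := by
    have h := ((BO.sum Finset.univ fun i => bK i i).sub bnn).mul binv
    rw [show q + 1 + -1 = q by ring] at h
    refine h.congr (R := R0) fun y hy => ?_
    unfold kap trL
    rw [lapL_eq (hPt y hy).cl]
    ring
  have bgrd : ∀ i, BO (q + 1) (grd lam W i) := fun i =>
    ((bdW i).sub ((BO.sum Finset.univ fun j => (bdW j).mulb (bl j)).mulb (bl i))).congr (R := R0)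
      fun y hy => (hPt y hy).grd_eq i
  have binvW : BO 0 fun y => 1 / (1 + W y) := KSN.BO.inv_one_add hq0 bW
  obtain ⟨R2, hR2, hW⟩ := bW.small hq0 (ε := 1 / 2) (by norm_num)
  have h1W : ∀ y : E n, R2 < ‖y‖ → 1 + W y ≠ 0 := fun y hy => by
    have := (abs_le.1 (hW y hy)).1
    linarith
  have bX : ∀ i, BO (2 * q + 1) fun y => XL lam W D.K i y - Ef D i y := by
    intro i
    have t1 : BO (2 * q + 1) fun y => kap lam D.K y * kap lam D.K y *
        (lap lam y * pd i lam y) / 2 := by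
      have := ((bkap.mul bkap).mul (blap.mulb (bl i))).div_const 2
      rwa [show q + q + 1 = 2 * q + 1 by ring] at this
    have t2 : BO (2 * q + 1) fun y => W y * W y *
        (1 / (1 + W y) * (lap lam y * pd i lam y)) / 2 := by
      have := ((bW.mul bW).mul (binvW.bmul (blap.mulb (bl i)))).div_const 2
      rwa [show q + q + 1 = 2 * q + 1 by ring] at this
    have t3 : BO (2 * q + 1) fun y => W y * grd lam W i y * (1 / (1 + W y)) / 2 := by
      have := ((bW.mul (bgrd i)).mulb binvW).div_const 2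
      rwa [show q + (q + 1) = 2 * q + 1 by ring] at this
    have t4 : BO (2 * q + 1) fun y => kap lam D.K y *
        (col lam D.K i y - nn lam D.K y * pd i lam y) := by
      have := bkap.mul ((bcol i).sub (bnn.mulb (bl i)))
      rwa [show q + (q + 1) = 2 * q + 1 by ring] at this
    refine (((t1.sub t2).add t3).sub t4).congr (R := max R0 R2) fun y hy => ?_
    exact (hPt y ((le_max_left _ _).trans_lt hy)).XL_sub (h1W y ((le_max_right _ _).trans_lt hy)) i
  have hq2 : (n : ℝ) - 1 < 2 * q + 1 := by linarith only [hq]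
  have hE : BO (2 * q + 1) fun y => ∑ i, (XL lam W D.K i y - Ef D i y) * (y i / ‖y‖) :=
    BO.sum _ fun i => (bX i).mulb (BO_th i)
  have g1 := Tendsto.const_mul (((n : ℝ) - 1) * om n) hm
  have g2 := (hE.tendsto hq2).add g1
  rw [zero_add] at g2
  refine g2.congr' ?_
  filter_upwards [eventually_gt_atTop R0, eventually_gt_atTop R1, eventually_gt_atTop R2,
    eventually_gt_atTop 0] with r hr hr1 hr2 hr0
  have cX : ∀ i (y : E n), ‖y‖ = r → ContinuousAt (XL lam W D.K i) y := fun i y hy => by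
    have P := hPt y (by rw [hy]; exact hr)
    refine (XL_cd P.cl P.cW (h1W y (by rw [hy]; exact hr2)) ?_ i).continuousAt
    rw [lapL_eq P.cl]
    exact (hR1 y (by rw [hy]; exact hr1)).ne'
  have e1 : r ^ (n - 1) * SI (fun θ => (fun y : E n => ∑ i, (XL lam W D.K i y - Ef D i y) *
      (y i / ‖y‖)) (r • θ)) = flux (fun i y => XL lam W D.K i y - Ef D i y) r := rfl
  rw [e1, ← KSN.X5.flx_eq, ← flux_sphInt, flux_sub (W := XL lam W D.K) (W' := Ef D) hr0 cX
    (fun i y _ => (Ef_cont D i).continuousAt)]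
  have e2 : flux (fun i x => (∑ j, (Stmt.pd j (fun y => D.g y i j) x -
      Stmt.pd i (fun y => D.g y j j) x)) / 2) r = flux (Ef D) r := rfl
  rw [e2]
  ring

end Vale.Agent.P366.CL
end
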