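import Vale.Agent.P366.Kerr.Defs

/-! Initial data foliated by the parallel surfaces of a convex body: the metric is
`g = δ + W dλ ⊗ dλ`, where `λ` is the distance parameter of the parallel surfaces, and the tensor
`K` is arbitrary. Definitions, in every space dimension `n`. -/

open MeasureTheory Metric Filter Topology Set
open scoped ContDiff ENNReal

noncomputable section
namespace Vale.Agent.P366.CL

open Vale.Agent.P366.Kerr (NullCone Psi)

variable {n : ℕ}

/-- The exterior `D` is the outside of the closed convex surface `y = ∇H(ν) + c ν`, `|ν| = 1`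
(`C.U = c` is constant), on it `λ = s` at `y = ∇H(ν) + s ν`, and the metric is
`g = δ + W dλ ⊗ dλ`: the leaves `λ = s` have the metric of the parallel surfaces in Euclidean
space, and `√(1 + W)` is the lapse of the foliation. -/
structure IsLeafExt (C : NullCone n) (lam W : Stmt.E n → ℝ) (D : Stmt.Exterior n) : Prop where
  cst : ∃ c, ∀ x, x ≠ 0 → C.U x = c
  dom : ∀ y, 0 ≤ D.F y ↔ ∃ x, x ≠ 0 ∧ C.U x ≤ ‖x‖ ∧ Psi C.H x = y
  bdF : ∀ x, x ≠ 0 → ‖x‖ = C.U x → D.F (Psi C.H x) = 0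
  smL : ∀ y, 0 ≤ D.F y → ContDiffAt ℝ ∞ lam y
  eqL : ∀ x, x ≠ 0 → C.U x ≤ ‖x‖ → lam (Psi C.H x) = ‖x‖
  smW : ∀ y, 0 ≤ D.F y → ContDiffAt ℝ ∞ W y
  met : ∀ y, 0 ≤ D.F y → ∀ i j, D.g y i j =
    (if i = j then 1 else 0) + W y * Stmt.pd i lam y * Stmt.pd j lam y

/-- The Euclidean mean curvature `Δλ` of the leaf. -/
def lapL (lam : Stmt.E n → ℝ) (y : Stmt.E n) : ℝ := ∑ i, Stmt.pd i (Stmt.pd i lam) y

/-- The Euclidean contraction `K(∂_i, ∇λ)`. -/
def col (lam : Stmt.E n → ℝ) (K : Stmt.Field n) (i : Fin n) (y : Stmt.E n) : ℝ :=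
  ∑ j, K y i j * Stmt.pd j lam y

/-- The Euclidean contraction `K(∇λ, ∇λ)`. -/
def nn (lam : Stmt.E n → ℝ) (K : Stmt.Field n) (y : Stmt.E n) : ℝ :=
  ∑ i, col lam K i y * Stmt.pd i lam y

/-- The trace `τ` of `K` over the leaf. -/
def trL (lam : Stmt.E n → ℝ) (K : Stmt.Field n) (y : Stmt.E n) : ℝ :=
  ∑ i, K y i i - nn lam K y

/-- The quotient `κ = τ / Δλ`. -/
def kap (lam : Stmt.E n → ℝ) (K : Stmt.Field n) (y : Stmt.E n) : ℝ := trL lam K y / lapL lam y

/-- The quotient `T = τ / H`; the mean curvature of the leaf is `H = Δλ / √(1 + W)`. -/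
def rat (lam W : Stmt.E n → ℝ) (K : Stmt.Field n) (y : Stmt.E n) : ℝ :=
  kap lam K y * √(1 + W y)

/-- The covector `α = K(ν, ·)` on the leaf. -/
def alf (lam W : Stmt.E n → ℝ) (K : Stmt.Field n) (i : Fin n) (y : Stmt.E n) : ℝ :=
  (col lam K i y - nn lam K y * Stmt.pd i lam y) / √(1 + W y)

/-- The trace-free part `σ = K - κ D²λ` of `K` on the leaf. -/
def sig (lam : Stmt.E n → ℝ) (K : Stmt.Field n) (i j : Fin n) (y : Stmt.E n) : ℝ :=
  K y i j - col lam K i y * Stmt.pd j lam y - col lam K j y * Stmt.pd i lam y +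
    nn lam K y * Stmt.pd i lam y * Stmt.pd j lam y - kap lam K y * Stmt.pd i (Stmt.pd j lam) y

/-- The gradient of `φ` along the leaf. -/
def grd (lam φ : Stmt.E n → ℝ) (i : Fin n) (y : Stmt.E n) : ℝ :=
  Stmt.pd i φ y - (∑ j, Stmt.pd j φ y * Stmt.pd j lam y) * Stmt.pd i lam y

/-- The gradient of `log √(1 + W)` along the leaf. -/
def acc (lam W : Stmt.E n → ℝ) (i : Fin n) (y : Stmt.E n) : ℝ :=
  grd lam W i y / (2 * (1 + W y))

/-- The density `μ - T J(ν) + |σ|² / 2 + |α|² + |a|² + 2 T ⟨α, a⟩ - ⟨α, ∇T⟩`, where `a` is the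
gradient of `log √(1 + W)` along the leaf. -/
def den (lam W : Stmt.E n → ℝ) (g K : Stmt.Field n) (y : Stmt.E n) : ℝ :=
  Stmt.mu g K y - rat lam W K y * (∑ i, Stmt.mom g K i y * Stmt.pd i lam y) / √(1 + W y) +
    (∑ i, ∑ j, sig lam K i j y ^ 2) / 2 + ∑ i, alf lam W K i y ^ 2 + ∑ i, acc lam W i y ^ 2 +
    2 * rat lam W K y * ∑ i, alf lam W K i y * acc lam W i y -
    ∑ i, alf lam W K i y * grd lam (rat lam W K) i y

/-- The condition at the interior point `y`: `|τ| ≤ H` and `⟨α, ∇T⟩ ≤ (1 - T²) |α|²` on the leaf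
(the second inequality holds if `α` or the gradient of `T` on the leaf vanishes); or, more
generally, the density `den` is nonnegative. -/
def LeafAt (lam W : Stmt.E n → ℝ) (g K : Stmt.Field n) (y : Stmt.E n) : Prop :=
  (|trL lam K y| ≤ lapL lam y / √(1 + W y) ∧
    ∑ i, alf lam W K i y * grd lam (rat lam W K) i y ≤
      (1 - rat lam W K y ^ 2) * ∑ i, alf lam W K i y ^ 2) ∨
  0 ≤ den lam W g K y

end Vale.Agent.P366.CL
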