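import Vale.Agent.P366.CL.Defs

/-! Data foliated by the parallel surfaces of a convex body: the condition of the case of
equality. -/

open MeasureTheory Metric Filter Topology Set
open scoped ContDiff ENNReal

noncomputable section
namespace Vale.Agent.P366.CL

variable {n : ℕ}

/-- The strict form of the condition at the interior point `y`: `|τ| < H`, and `K(ν, ·)` vanishes on
the leaf or `⟨α, ∇T⟩ < (1 - T²) |α|²`; or, more generally, the density `den` is positive. -/
def StrictAt (lam W : Stmt.E n → ℝ) (g K : Stmt.Field n) (y : Stmt.E n) : Prop :=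
  (|trL lam K y| < lapL lam y / √(1 + W y) ∧
    ((∀ i, alf lam W K i y = 0) ∨
      ∑ i, alf lam W K i y * grd lam (rat lam W K) i y <
        (1 - rat lam W K y ^ 2) * ∑ i, alf lam W K i y ^ 2)) ∨
  0 < den lam W g K y

end Vale.Agent.P366.CL
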