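import Vale.Agent.P366.CL.Defs
import Vale.Agent.P366.H474.N.FarB

/-! An auxiliary hypersurface of Minkowski space over the exterior domain of data which are
foliated by parallel surfaces: all lemmas about the function `λ` of `Kerr.IsSlice` apply. -/

open MeasureTheory Metric Filter Topology Set
open scoped ContDiff ENNReal

noncomputable section
namespace Vale.Agent.P366.CL

open Vale.Agent.P366 (pd E)
open Vale.Agent.P366.H353.N (kd hs)
open Vale.Agent.P366.Kerr (NullCone Psi pt sp ksG indG indK lapse con tng IsSlice)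

variable {n : ℕ} {C : NullCone n} {lam W : E n → ℝ} {D : Stmt.Exterior n}

/-- the Minkowski metric -/
theorem ksG_flat (lam : E n → ℝ) : ksG lam (fun _ => 0) =
    fun _ i j => if i = j then (if i = 0 then -1 else 1) else 0 := by
  funext p i j
  simp only [ksG, zero_mul, add_zero]

theorem up_flat (lam : E n → ℝ) (a b : Fin (n + 1)) (p : E (n + 1)) :
    Stmt.up (ksG lam (fun _ => 0)) a b p = if a = b then (if a = 0 then -1 else 1) else 0 := by
  have h : Stmt.mat (ksG lam (fun _ => 0)) p =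
      Matrix.diagonal fun a : Fin (n + 1) => if a = 0 then (-1 : ℝ) else 1 := by
    ext i j
    rw [Stmt.mat, ksG_flat, Matrix.diagonal_apply]
  have h2 : (Matrix.diagonal fun a : Fin (n + 1) => if a = 0 then (-1 : ℝ) else 1)⁻¹ =
      Matrix.diagonal fun a : Fin (n + 1) => if a = 0 then (-1 : ℝ) else 1 := by
    refine Matrix.inv_eq_right_inv ?_
    rw [Matrix.diagonal_mul_diagonal, ← Matrix.diagonal_one]
    congr 1
    funext a
    split_ifs <;> norm_num
  rw [Stmt.up, h, h2, Matrix.diagonal_apply]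

theorem chr_flat (lam : E n → ℝ) (a b c : Fin (n + 1)) (p : E (n + 1)) :
    Stmt.chr (ksG lam (fun _ => 0)) a b c p = 0 := by
  unfold Stmt.chr Stmt.pd
  rw [ksG_flat]
  simp [lineDeriv]

theorem lapse_flat (lam : E n → ℝ) {f : E n → ℝ} {y : E n} (hf : DifferentiableAt ℝ f y) :
    lapse (ksG lam (fun _ => 0)) f y = 1 / √(1 - ∑ i, pd i f y ^ 2) := by
  unfold lapse
  congr 2
  simp only [up_flat, Fin.sum_univ_succ (n := n), Kerr.con, Fin.cons_zero, Fin.cons_succ,
    Vale.Agent.P366.Bridge.pd_eq hf]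
  simp only [if_true, Fin.succ_ne_zero, if_false, Fin.succ_inj, (Fin.succ_ne_zero _).symm,
    zero_mul, Finset.sum_const_zero, add_zero, zero_add, ite_mul, one_mul,
    Finset.sum_ite_eq, Finset.mem_univ]
  have : ∑ x : Fin n, -pd x f y * -pd x f y = ∑ i, pd i f y ^ 2 :=
    Finset.sum_congr rfl fun i _ => by ring
  rw [this]
  ring

theorem indK_flat (lam : E n → ℝ) {f : E n → ℝ} {y : E n} (hf : ContDiffAt ℝ ∞ f y)
    (i j : Fin n) : indK (ksG lam (fun _ => 0)) f y i j =
      1 / √(1 - ∑ i, pd i f y ^ 2) * hs f i j y := by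
  unfold indK
  rw [lapse_flat lam (hf.differentiableAt (by simp)), KSN.spd2_eq hf]
  simp only [chr_flat, zero_mul, Finset.sum_const_zero, mul_zero, add_zero]

/-- a smooth function with a small gradient, constant near the origin, of bounded support -/
theorem exists_cut (c R : ℝ) : ∃ f : E n → ℝ, ContDiff ℝ ∞ f ∧ (∀ y : E n, ‖y‖ ≤ R → f y = c) ∧
    (∃ R' : ℝ, ∀ y : E n, R' < ‖y‖ → f y = 0) ∧ ∀ y, ∑ i, pd i f y ^ 2 < 1 := by
  let χ : ContDiffBump (0 : E n) := ⟨1, 2, one_pos, one_lt_two⟩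
  have hχ : ContDiff ℝ ∞ (χ : E n → ℝ) := χ.contDiff
  obtain ⟨M, hM⟩ : ∃ M, ∀ x : E n, ‖fderiv ℝ (χ : E n → ℝ) x‖ ≤ M :=
    (hχ.continuous_fderiv (by simp)).bounded_above_of_compact_support (χ.hasCompactSupport.fderiv ℝ)
  have hM0 : 0 ≤ M := (norm_nonneg _).trans (hM 0)
  set L : ℝ := |R| + 1 + |c| * (n + 1) * (M + 1) with hL
  have hn0 : (0 : ℝ) ≤ n := Nat.cast_nonneg n
  have hb : 0 ≤ |c| * (n + 1) * (M + 1) := by positivity
  have hL0 : 0 < L := by rw [hL]; linarith [abs_nonneg R]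
  have hc1 : ContDiff ℝ ∞ fun y : E n => c * χ (L⁻¹ • y) :=
    contDiff_const.mul (hχ.comp (contDiff_const_smul L⁻¹))
  refine ⟨fun y => c * χ (L⁻¹ • y), hc1, fun y hy => ?_, ⟨2 * L, fun y hy => ?_⟩, fun y => ?_⟩
  · have h1 : χ (L⁻¹ • y) = 1 := by
      refine χ.one_of_mem_closedBall ?_
      rw [mem_closedBall_zero_iff, norm_smul, Real.norm_eq_abs, abs_of_pos (inv_pos.2 hL0)]
      show L⁻¹ * ‖y‖ ≤ 1
      rw [inv_mul_le_iff₀ hL0, mul_one]
      linarith [le_abs_self R]
    show c * χ (L⁻¹ • y) = c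
    rw [h1, mul_one]
  · have h1 : χ (L⁻¹ • y) = 0 := by
      refine χ.zero_of_le_dist ?_
      rw [dist_zero_right, norm_smul, Real.norm_eq_abs, abs_of_pos (inv_pos.2 hL0)]
      show 2 ≤ L⁻¹ * ‖y‖
      rw [le_inv_mul_iff₀ hL0]
      linarith
    show c * χ (L⁻¹ • y) = 0
    rw [h1, mul_zero]
  · have h1 : ∀ i, pd i (fun y : E n => c * χ (L⁻¹ • y)) y =
        c * (L⁻¹ * fderiv ℝ (χ : E n → ℝ) (L⁻¹ • y) (EuclideanSpace.single i 1)) := by
      intro i
      have hd : HasFDerivAt (fun y : E n => χ (L⁻¹ • y))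
          ((fderiv ℝ (χ : E n → ℝ) (L⁻¹ • y)).comp (L⁻¹ • ContinuousLinearMap.id ℝ (E n))) y := by
        have h2 : HasFDerivAt (χ : E n → ℝ) (fderiv ℝ (χ : E n → ℝ) (L⁻¹ • y)) (L⁻¹ • y) :=
          (hχ.differentiable (by simp) _).hasFDerivAt
        exact h2.comp y ((hasFDerivAt_id y).const_smul L⁻¹)
      show fderiv ℝ (fun y : E n => c * χ (L⁻¹ • y)) y (EuclideanSpace.single i 1) = _
      rw [(hd.const_mul c).fderiv]
      simp
    have h2 : ∀ i, (pd i (fun y : E n => c * χ (L⁻¹ • y)) y) ^ 2 ≤ (c * L⁻¹ * M) ^ 2 := by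
      intro i
      rw [h1, ← mul_assoc, mul_pow, mul_pow (c * L⁻¹)]
      refine mul_le_mul_of_nonneg_left ?_ (sq_nonneg _)
      rw [sq_le_sq, abs_of_nonneg hM0, ← Real.norm_eq_abs]
      refine ((fderiv ℝ (χ : E n → ℝ) (L⁻¹ • y)).le_opNorm _).trans ?_
      rw [PiLp.norm_single, norm_one, mul_one]
      exact hM _
    refine (Finset.sum_le_sum fun i _ => h2 i).trans_lt ?_
    rw [Finset.sum_const, Finset.card_univ, Fintype.card_fin, nsmul_eq_mul]
    have h3 : (c * L⁻¹ * M) ^ 2 = (|c| * M) ^ 2 / L ^ 2 := by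
      rw [mul_pow |c|, sq_abs]
      field_simp
    rw [h3, ← mul_div_assoc, div_lt_one (by positivity)]
    have h4 : (|c| * M * (n + 1)) ^ 2 < L ^ 2 := by
      have h5 : |c| * M * (n + 1) < L := by
        rw [hL]
        have : |c| * M * (n + 1) ≤ |c| * (n + 1) * (M + 1) := by
          have : 0 ≤ |c| * (n + 1) := by positivity
          linarith
        linarith [abs_nonneg R]
      exact pow_lt_pow_left₀ h5 (by positivity) two_ne_zero
    have h6 : (n : ℝ) * (|c| * M) ^ 2 ≤ (|c| * M * (n + 1)) ^ 2 := by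
      rw [mul_pow (|c| * M), mul_comm]
      refine mul_le_mul_of_nonneg_left ?_ (sq_nonneg _)
      nlinarith
    linarith

/-- All lemmas about the function `λ` of `Kerr.IsSlice` apply to an `IsLeafExt`. -/
theorem exists_slice (hL : IsLeafExt C lam W D) : ∃ (f : E n → ℝ) (D' : Stmt.Exterior n),
    D'.F = D.F ∧ IsSlice C lam (fun _ => 0) f D' := by
  obtain ⟨c, hc⟩ := hL.cst
  obtain ⟨R, hR⟩ := D.dom.2.2.2
  obtain ⟨f, hf, h1, h2, h3⟩ := exists_cut (n := n) (-c) R
  have hpd : ∀ i, ContDiff ℝ ∞ (pd i f) := fun i =>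
    contDiff_iff_contDiffAt.2 fun y => KSN.pd_contDiffAt hf.contDiffAt i
  have hhs : ∀ i j, ContDiff ℝ ∞ (hs f i j) := fun i j =>
    contDiff_iff_contDiffAt.2 fun y => KSN.pd_contDiffAt (KSN.pd_contDiffAt hf.contDiffAt j) i
  have hpos : ∀ y, 0 < 1 - ∑ i, pd i f y ^ 2 := fun y => by linarith [h3 y]
  have hsq : ContDiff ℝ ∞ fun y => 1 / √(1 - ∑ i, pd i f y ^ 2) := by
    refine contDiff_const.div (ContDiff.sqrt (contDiff_const.sub
      (ContDiff.sum fun i _ => (hpd i).pow 2)) fun y => (hpos y).ne') fun y => ?_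
    exact (Real.sqrt_pos.2 (hpos y)).ne'
  let D' : Stmt.Exterior n :=
    { F := D.F
      g := fun y i j => kd i j - pd i f y * pd j f y
      K := fun y i j => 1 / √(1 - ∑ i, pd i f y ^ 2) * hs f i j y
      dom := D.dom
      bdry := D.bdry
      smooth := fun i j => ⟨contDiff_const.sub ((hpd i).mul (hpd j)), hsq.mul (hhs i j)⟩
      symm := fun y i j => by
        refine ⟨by rw [KSN.kd_comm, mul_comm (pd i f y)], ?_⟩
        rw [KSN.hs_symm_at hf.contDiffAt]
      pos := fun y _ => by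
        refine Matrix.PosDef.of_dotProduct_mulVec_pos ?_ ?_
        · rw [Matrix.IsHermitian, Matrix.conjTranspose_eq_transpose_of_trivial]
          ext i j
          show kd j i - pd j f y * pd i f y = kd i j - pd i f y * pd j f y
          rw [KSN.kd_comm, mul_comm (pd i f y)]
        · intro v hv
          have e : star v ⬝ᵥ (Stmt.mat (fun y i j => kd i j - pd i f y * pd j f y) y).mulVec v =
              ∑ i, v i ^ 2 - (∑ i, pd i f y * v i) ^ 2 := by
            have e1 : ∀ i, (Stmt.mat (fun y i j => kd i j - pd i f y * pd j f y) y).mulVec v i =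
                v i - pd i f y * ∑ j, pd j f y * v j := by
              intro i
              show ∑ j, (kd i j - pd i f y * pd j f y) * v j = _
              rw [Finset.mul_sum, ← KSN.sum_kd_mul i v, ← Finset.sum_sub_distrib]
              exact Finset.sum_congr rfl fun j _ => by ring
            simp only [star_trivial, dotProduct, e1, mul_sub, Finset.sum_sub_distrib]
            rw [sq (∑ i, pd i f y * v i)]
            conv_rhs => rw [Finset.sum_mul]
            congr 1
            · exact Finset.sum_congr rfl fun i _ => by ring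
            · exact Finset.sum_congr rfl fun i _ => by ring
          rw [e]
          have h4 : (∑ i, pd i f y * v i) ^ 2 ≤ (∑ i, pd i f y ^ 2) * ∑ i, v i ^ 2 :=
            Finset.sum_mul_sq_le_sq_mul_sq _ _ _
          have h5 : 0 < ∑ i, v i ^ 2 := by
            obtain ⟨i, hi⟩ := Function.ne_iff.1 hv
            exact Finset.sum_pos' (fun _ _ => sq_nonneg _) ⟨i, Finset.mem_univ _, by
              have : v i ≠ 0 := hi
              positivity⟩
          nlinarith [hpos y] }
  refine ⟨f, D', rfl, ⟨hL.dom, fun x hx hU => ⟨hL.bdF x hx hU, ?_⟩, hL.smL, hL.eqL,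
    fun y _ => hf.contDiffAt, h2, fun y hy i j => ?_, fun y hy i j => ?_⟩⟩
  · rw [hc x hx]
    refine h1 _ ?_
    by_contra hcon
    rw [not_le] at hcon
    have h6 := hR _ hcon
    have h7 := hL.bdF x hx hU
    linarith
  · show kd i j - pd i f y * pd j f y = _
    rw [KSN.indG_eq ((hL.smL y hy).differentiableAt (by simp))
      (hf.contDiffAt.differentiableAt (by simp))]
    ring
  · show 1 / √(1 - ∑ i, pd i f y ^ 2) * hs f i j y = _
    rw [indK_flat lam hf.contDiffAt]

end Vale.Agent.P366.CL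
end
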