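import Vale.Agent.P366.CL.Flux
import Vale.Agent.P366.H707.L.Rig
import Vale.Agent.P366.H208.CL.Main

/-! Data foliated by parallel surfaces, the case of equality: the functions are radial. -/

open MeasureTheory Metric Filter Topology Set
open scoped ContDiff ENNReal

noncomputable section
namespace Vale.Agent.P366.CL

open Vale.Agent.P366 (pd E flux fderiv_eq_sum_pd)
open Vale.Agent.P366.H353.N (kd hs lap SI om)
open Vale.Agent.P366.KSN (Y dts)
open Vale.Agent.P366.KSN.X5 (DP cdd cd_pd cd_hs)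
open Vale.Agent.P366.Kerr (NullCone Psi)
open Vale.Agent.P366.KSL

variable {n : ℕ} {C : NullCone n} {lam W : E n → ℝ} {D : Stmt.Exterior n} {y c : E n} {r k : ℝ}

/-- A function whose gradient is radial at the points of a round sphere is constant on it. -/
theorem const_sphere [hn : Fact (3 ≤ n)] (hr : 0 < r) {g : E n → ℝ}
    (hg : ∀ y, ‖y - c‖ = r → DifferentiableAt ℝ g y)
    (h0 : ∀ y, ‖y - c‖ = r → ∃ a : ℝ, ∀ i, pd i g y = a * (y i - c i)) {y y' : E n}
    (hy : ‖y - c‖ = r) (hy' : ‖y' - c‖ = r) : g y = g y' := by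
  set ζ : E n → E n := fun z => c + (r / ‖z‖) • z with hζ
  have hnorm : ∀ z : E n, z ≠ 0 → ‖ζ z - c‖ = r := by
    intro z hz
    have h1 : ‖z‖ ≠ 0 := norm_ne_zero_iff.2 hz
    rw [hζ]
    simp only [add_sub_cancel_left]
    rw [norm_smul, Real.norm_eq_abs, abs_of_pos (div_pos hr (norm_pos_iff.2 hz)),
      div_mul_cancel₀ _ h1]
  have hd : ∀ z : E n, z ≠ 0 → DifferentiableAt ℝ ζ z := by
    intro z hz
    have h2 : DifferentiableAt ℝ (fun z : E n => r / ‖z‖) z :=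
      ((contDiffAt_const (c := r)).div (contDiffAt_norm ℝ hz (n := 1))
        (norm_ne_zero_iff.2 hz)).differentiableAt (by simp)
    exact (h2.smul differentiableAt_id).const_add c
  have hort : ∀ z : E n, z ≠ 0 → ∀ v, inner ℝ (ζ z - c) (fderiv ℝ ζ z v) = 0 := by
    intro z hz v
    have h1 : HasFDerivAt (fun z => ζ z - c) (fderiv ℝ ζ z) z := (hd z hz).hasFDerivAt.sub_const c
    have h2 := h1.norm_sq
    have h3 : (fun z => ‖ζ z - c‖ ^ 2) =ᶠ[𝓝 z] fun _ => r ^ 2 := by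
      filter_upwards [isOpen_ne.mem_nhds hz] with w hw
      rw [hnorm w hw]
    have h4 : HasFDerivAt (fun z => ‖ζ z - c‖ ^ 2) (0 : E n →L[ℝ] ℝ) z :=
      (hasFDerivAt_const (r ^ 2) z).congr_of_eventuallyEq h3
    have h5 := congrArg (fun L : E n →L[ℝ] ℝ => L v) (h2.unique h4)
    simpa [inner_sub_left] using h5
  have hG : ∀ z : E n, z ≠ 0 → HasFDerivAt (g ∘ ζ) (0 : E n →L[ℝ] ℝ) z := by
    intro z hz
    have h1 := (hg (ζ z) (hnorm z hz)).hasFDerivAt.comp z (hd z hz).hasFDerivAt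
    have h2 : (fderiv ℝ g (ζ z)).comp (fderiv ℝ ζ z) = 0 := by
      ext v
      obtain ⟨a, ha⟩ := h0 (ζ z) (hnorm z hz)
      rw [ContinuousLinearMap.comp_apply, fderiv_eq_sum_pd, zero_apply]
      have h3 := hort z hz v
      rw [PiLp.inner_apply] at h3
      simp only [RCLike.inner_apply, conj_trivial, PiLp.sub_apply] at h3
      have h4 : ∑ i, (fderiv ℝ ζ z v) i * pd i g (ζ z) =
          a * ∑ i, (fderiv ℝ ζ z v) i * (ζ z i - c i) := by
        rw [Finset.mul_sum]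
        exact Finset.sum_congr rfl fun i _ => by rw [ha i]; ring
      rw [h4, h3, mul_zero]
    rwa [h2] at h1
  have hconn : IsPreconnected ({0}ᶜ : Set (E n)) := by
    refine (isConnected_compl_singleton_of_one_lt_rank ?_ (0 : E n)).isPreconnected
    rw [← Module.finrank_eq_rank, finrank_euclideanSpace, Fintype.card_fin]
    have := hn.out
    exact_mod_cast (by omega : 1 < n)
  have hy0 : y - c ≠ 0 := fun h => by rw [h, norm_zero] at hy; exact hr.ne hy
  have hy0' : y' - c ≠ 0 := fun h => by rw [h, norm_zero] at hy'; exact hr.ne hy'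
  have e := (isOpen_compl_singleton (x := (0 : E n))).is_const_of_fderiv_eq_zero hconn
    (f := g ∘ ζ) (fun z hz => (hG z hz).differentiableAt.differentiableWithinAt)
    (fun z hz => (hG z hz).fderiv) (x := y - c) (y := y' - c) hy0 hy0'
  have e1 : ∀ z : E n, ‖z - c‖ = r → (g ∘ ζ) (z - c) = g z := by
    intro z hz
    show g (c + (r / ‖z - c‖) • (z - c)) = g z
    rw [hz, div_self hr.ne', one_smul, add_sub_cancel]
  rw [e1 y hy, e1 y' hy'] at e
  exact e

/-- `C` is the null cone of a round sphere about `c` -/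
structure Rd (C : NullCone n) (k u : ℝ) (c : E n) : Prop where
  H : ∀ x, x ≠ 0 → C.H x = k * ‖x‖ + ∑ i, c i * x i
  U : ∀ x, x ≠ 0 → C.U x = u

theorem one_lt_rank [hn : Fact (3 ≤ n)] : 1 < Module.rank ℝ (E n) := by
  rw [← Module.finrank_eq_rank, finrank_euclideanSpace, Fintype.card_fin]
  have := hn.out
  exact_mod_cast (by omega : 1 < n)

section Round

variable {u s : ℝ} {x : E n} (h : Rd C k u c)
include h

theorem Rd.Y (hx : ‖x‖ = 1) (s : ℝ) : Y C.H x s = c + (k + s) • x := by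
  have hx0 := H353.N.ne_zero_of_one hx
  ext i
  have e : C.H =ᶠ[𝓝 x] fun z => k * ‖z‖ + ∑ j, c j * z j := by
    filter_upwards [isOpen_ne.mem_nhds hx0] with z hz
    exact h.H z hz
  have h1 : DP i (fun z : E n => ‖z‖) (Vale.Agent.P366.Nc i x) x :=
    ⟨(contDiffAt_norm ℝ hx0 (n := 1)).differentiableAt (by simp),
      Vale.Agent.P366.pd_norm hx0 i⟩
  have h2 : ∀ j, DP i (fun z : E n => z j) (if i = j then 1 else 0) x := fun j =>
    ⟨(H353.N.Sm.coord j x hx0).differentiableAt (by simp), Vale.Agent.P366.pd_coord i j x⟩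
  have h3 : DP i (fun z : E n => k * ‖z‖ + ∑ j, c j * z j)
      (k * Vale.Agent.P366.Nc i x + ∑ j, c j * (if i = j then 1 else 0)) x :=
    (h1.cmul k).add (DP.sum _ fun j => (h2 j).cmul (c j))
  rw [KSN.Y_apply, Vale.Agent.P366.pd_congr e i, h3.2]
  simp only [Vale.Agent.P366.Nc, hx, div_one, PiLp.add_apply, PiLp.smul_apply, smul_eq_mul,
    mul_ite, mul_one, mul_zero, Finset.sum_ite_eq, Finset.mem_univ, if_true]
  ring

theorem Rd.pos [hn : Fact (3 ≤ n)] : 0 < k + u := by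
  by_contra hcon
  rw [not_lt] at hcon
  have i0 : Fin n := ⟨0, by have := hn.out; omega⟩
  set e : E n := EuclideanSpace.single i0 1 with he
  have he1 : ‖e‖ = 1 := by rw [he, PiLp.norm_single, norm_one]
  have he2 : ‖-e‖ = 1 := by rw [norm_neg, he1]
  have hU : ∀ x : E n, ‖x‖ = 1 → C.U x ≤ -k := fun x hx => by
    rw [h.U x (H353.N.ne_zero_of_one hx)]; linarith
  have h1 := KSN.Y_inj C he1 (hU e he1) he2 (hU _ he2) (by
    rw [h.Y he1, h.Y he2]; simp)
  have h2 : e = -e := h1.1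
  have h3 : e = 0 := by
    have : (2 : ℝ) • e = 0 := by rw [two_smul]; nth_rw 1 [h2]; simp
    exact (smul_eq_zero.1 this).resolve_left two_ne_zero
  rw [h3, norm_zero] at he1
  exact zero_ne_one he1

theorem Rd.mem [hn : Fact (3 ≤ n)] (hL : IsLeafExt C lam W D) :
    0 ≤ D.F y ↔ k + u ≤ ‖y - c‖ := by
  have hp := h.pos
  rw [CLam.mem_iff hL.toLamS]
  constructor
  · rintro ⟨x, s, hx, hs, rfl⟩
    rw [h.U x (H353.N.ne_zero_of_one hx)] at hs
    rw [h.Y hx, add_sub_cancel_left, norm_smul, hx, mul_one, Real.norm_eq_abs,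
      abs_of_pos (by linarith)]
    linarith
  · intro hy
    have hr : 0 < ‖y - c‖ := hp.trans_le hy
    have hx : ‖(‖y - c‖⁻¹ • (y - c))‖ = 1 := by
      rw [norm_smul, norm_inv, norm_norm, inv_mul_cancel₀ hr.ne']
    refine ⟨‖y - c‖⁻¹ • (y - c), ‖y - c‖ - k, hx, ?_, ?_⟩
    · rw [h.U _ (H353.N.ne_zero_of_one hx)]; linarith
    · rw [h.Y hx, add_sub_cancel, smul_smul, mul_inv_cancel₀ hr.ne', one_smul, add_sub_cancel]

theorem Rd.polar [hn : Fact (3 ≤ n)] (hL : IsLeafExt C lam W D) (hy : 0 ≤ D.F y) :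
    ∃ x : E n, ‖x‖ = 1 ∧ C.U x ≤ ‖y - c‖ - k ∧ KSN.Y C.H x (‖y - c‖ - k) = y ∧
      y = c + ‖y - c‖ • x := by
  obtain ⟨x, s, hx, hs, hxy⟩ := (CLam.mem_iff hL.toLamS).1 hy
  have hp := h.pos
  have hs' := hs
  rw [h.U x (H353.N.ne_zero_of_one hx)] at hs'
  have e : ‖y - c‖ = k + s := by
    rw [← hxy, h.Y hx, add_sub_cancel_left, norm_smul, hx, mul_one, Real.norm_eq_abs,
      abs_of_pos (by linarith)]
  have e2 : ‖y - c‖ - k = s := by rw [e]; ring
  refine ⟨x, hx, by rw [e2]; exact hs, by rw [e2]; exact hxy, ?_⟩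
  rw [e, ← h.Y hx, hxy]

theorem Rd.lam_eq [hn : Fact (3 ≤ n)] (hL : IsLeafExt C lam W D) (hy : 0 ≤ D.F y) :
    lam y = ‖y - c‖ - k := by
  obtain ⟨x, hx, hs, hY, -⟩ := h.polar hL hy
  have := CLam.lam_Y hL.toLamS hx hs
  rwa [hY] at this

theorem Rd.ne [hn : Fact (3 ≤ n)] (hL : IsLeafExt C lam W D) (hy : 0 ≤ D.F y) : y ≠ c := by
  rintro rfl
  have := (h.mem hL).1 hy
  rw [sub_self, norm_zero] at this
  linarith [h.pos]

theorem Rd.F_pos [hn : Fact (3 ≤ n)] (hL : IsLeafExt C lam W D) (hy : k + u < ‖y - c‖) :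
    0 < D.F y := by
  have hy0 := (h.mem hL).2 hy.le
  obtain ⟨x, hx, hs, hY, -⟩ := h.polar hL hy0
  have := CLam.F_pos hL.toLamS (s := ‖y - c‖ - k) hx (by
    rw [h.U x (H353.N.ne_zero_of_one hx)]; linarith)
  rwa [hY] at this

theorem Rd.pd_lam [hn : Fact (3 ≤ n)] (hL : IsLeafExt C lam W D) (hy : 0 ≤ D.F y) (i : Fin n) :
    pd i lam y = Rig.nn c i y := by
  obtain ⟨x, hx, hs, hY, hy2⟩ := h.polar hL hy
  have h1 := CLam.pd_lam_Y hL.toLamS hx hs i
  rw [hY] at h1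
  have hr : ‖y - c‖ ≠ 0 := Rig.rho_ne (h.ne hL hy)
  rw [h1]
  unfold Rig.nn
  rw [eq_div_iff hr]
  have h2 := congrArg (fun z : E n => z i) hy2
  simp only [PiLp.add_apply, PiLp.smul_apply, smul_eq_mul] at h2
  linarith

theorem Rd.lapL_int [hn : Fact (3 ≤ n)] (hL : IsLeafExt C lam W D) (hy : k + u < ‖y - c‖) :
    lapL lam y = ((n : ℝ) - 1) / ‖y - c‖ := by
  have hy0 := (h.mem hL).2 hy.le
  have hF := h.F_pos hL hy
  have hyc := h.ne hL hy0
  have hev : ∀ᶠ z in 𝓝 y, 0 ≤ D.F z :=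
    ((D.dom.1.continuous.continuousAt).eventually (lt_mem_nhds hF)).mono fun z hz => le_of_lt hz
  rw [lapL_eq (hL.smL y hy0)]
  have e : ∀ i, hs lam i i y = Rig.P c i i y / ‖y - c‖ := by
    intro i
    have h1 : pd i lam =ᶠ[𝓝 y] Rig.nn c i := hev.mono fun z hz => h.pd_lam hL hz i
    show pd i (pd i lam) y = _
    rw [Vale.Agent.P366.pd_congr h1 i, (Rig.dp_nn hyc i i).2]
    rfl
  show ∑ i, hs lam i i y = _
  rw [Finset.sum_congr rfl fun i _ => e i, ← Finset.sum_div, Rig.P_tr hyc]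

theorem Rd.norm_ray [hn : Fact (3 ≤ n)] (hx : ‖x‖ = 1) {t : ℝ} (ht : k + u ≤ t) :
    ‖c + t • x - c‖ = t := by
  rw [add_sub_cancel_left, norm_smul, hx, mul_one, Real.norm_eq_abs,
    abs_of_pos (h.pos.trans_le ht)]

theorem Rd.ray_mem [hn : Fact (3 ≤ n)] (hL : IsLeafExt C lam W D) (hx : ‖x‖ = 1) {t : ℝ}
    (ht : k + u ≤ t) : 0 ≤ D.F (c + t • x) := by
  rw [h.mem hL, h.norm_ray hx ht]
  exact ht

omit h in
theorem ray_diff (c x : E n) (t : ℝ) : HasDerivAt (fun t : ℝ => c + t • x) x t := by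
  simpa using ((hasDerivAt_id t).smul_const x).const_add c

omit h in
theorem ray_cont (c x : E n) (t : ℝ) : ContinuousAt (fun t : ℝ => c + t • x) t :=
  (ray_diff c x t).continuousAt

omit h in
/-- a function with continuous values on the rays is determined by its values inside -/
theorem ray_lim {g g' : E n → ℝ} {x x' : E n} {r₀ : ℝ} (hg : ContinuousAt g (c + r₀ • x))
    (hg' : ContinuousAt g' (c + r₀ • x')) (he : ∀ t, r₀ < t → g (c + t • x) = g' (c + t • x')) :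
    g (c + r₀ • x) = g' (c + r₀ • x') := by
  have h1 : ContinuousAt (fun t : ℝ => g (c + t • x) - g' (c + t • x')) r₀ :=
    (ContinuousAt.comp (f := fun t : ℝ => c + t • x) hg (ray_cont c x r₀)).sub
      (ContinuousAt.comp (f := fun t : ℝ => c + t • x') hg' (ray_cont c x' r₀))
  have h2 := KSN.ray_closed (g := fun t : ℝ => g (c + t • x) - g' (c + t • x')) (c := 0) h1
    fun t ht => sub_eq_zero.2 (he t ht)
  exact sub_eq_zero.1 h2

theorem Rd.lapL_eq [hn : Fact (3 ≤ n)] (hL : IsLeafExt C lam W D) (hy : 0 ≤ D.F y) :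
    lapL lam y = ((n : ℝ) - 1) / ‖y - c‖ := by
  rcases ((h.mem hL).1 hy).lt_or_eq with h1 | h1
  · exact h.lapL_int hL h1
  obtain ⟨x, hx, -, -, hyx⟩ := h.polar hL hy
  have hyc := h.ne hL hy
  rw [← h1] at hyx
  have h2 := ray_lim (c := c) (x := x) (x' := x) (r₀ := k + u) (g := lapL lam)
    (g' := fun y => ((n : ℝ) - 1) / ‖y - c‖) (by
      rw [← hyx]; exact (lapL_cd (hL.smL y hy)).continuousAt) (by
      rw [← hyx]; exact (contDiffAt_const.div (Rig.cd_rho hyc) (Rig.rho_ne hyc)).continuousAt)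
    fun t ht => h.lapL_int hL (by rw [h.norm_ray hx ht.le]; exact ht)
  rwa [← hyx] at h2

theorem Rd.lapL_ne [hn : Fact (3 ≤ n)] (hL : IsLeafExt C lam W D) (hy : 0 ≤ D.F y) :
    lapL lam y ≠ 0 := by
  have h3 : (3 : ℝ) ≤ n := by exact_mod_cast hn.out
  rw [h.lapL_eq hL hy]
  exact div_ne_zero (by linarith) (Rig.rho_ne (h.ne hL hy))

theorem Rd.kap_cd [hn : Fact (3 ≤ n)] (hL : IsLeafExt C lam W D) (hy : 0 ≤ D.F y) :
    ContDiffAt ℝ ∞ (kap lam D.K) y := CL.kap_cd (hL.smL y hy) (h.lapL_ne hL hy)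

end Round

/-- the function `V` -/
def VV (lam W : E n → ℝ) (D : Stmt.Exterior n) (y : E n) : ℝ :=
  W y / (1 + W y) + kap lam D.K y ^ 2

section Round

variable {u s : ℝ} {x : E n} (h : Rd C k u c)
include h

theorem Rd.VV_cd [hn : Fact (3 ≤ n)] (hL : IsLeafExt C lam W D) (hy : 0 ≤ D.F y) :
    ContDiffAt ℝ ∞ (VV lam W D) y :=
  ((hL.smW y hy).div (contDiffAt_const.add (hL.smW y hy)) (CLam.one_W_pos hL hy).ne').add
    ((h.kap_cd hL hy).pow 2)

/-- `V = (r₀ / r)^(n-2)` -/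
theorem Rd.VV_eq [hn : Fact (3 ≤ n)] (hL : IsLeafExt C lam W D)
    (hdiv : ∀ y, 0 < D.F y → ∑ i, pd i (XL lam W D.K i) y = 0)
    (hα : ∀ y, 0 < D.F y → ∀ i, alf lam W D.K i y = 0)
    (ha : ∀ y, 0 < D.F y → ∀ i, acc lam W i y = 0)
    (hbd : ∀ x : E n, ‖x‖ = 1 → VV lam W D (KSN.Y C.H x (C.U x)) = 1) (hy : 0 ≤ D.F y) :
    VV lam W D y = ((k + u) / ‖y - c‖) ^ (n - 2) := by
  have hr₀ := h.pos
  have hn3 := hn.out
  have h3 : (3 : ℝ) ≤ n := by exact_mod_cast hn.out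
  set β : E n → ℝ := fun y => VV lam W D y * lapL lam y / 2 with hβ
  have cβ : ∀ y, 0 ≤ D.F y → ContDiffAt ℝ ∞ β y := fun y hy =>
    ((h.VV_cd hL hy).mul (lapL_cd (hL.smL y hy))).div_const 2
  -- the field is radial
  have eX : ∀ z, 0 < D.F z → ∀ i, XL lam W D.K i z = β z * Rig.nn c i z := by
    intro z hz i
    have e1 : col lam D.K i z - nn lam D.K z * Stmt.pd i lam z = 0 := by
      have h1 := hα z hz i
      unfold alf at h1
      exact (div_eq_zero_iff.1 h1).resolve_right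
        (Real.sqrt_pos.2 (CLam.one_W_pos hL hz.le)).ne'
    unfold XL
    rw [e1, ha z hz i, spd_eq (hL.smL z hz.le), h.pd_lam hL hz.le, hβ]
    unfold VV
    ring
  have hβn : ∀ y, 0 < D.F y →
      ∑ i, pd i β y * Rig.nn c i y = - (β y * (((n : ℝ) - 1) / ‖y - c‖)) := by
    intro y hy
    have hyc := h.ne hL hy.le
    have hev : ∀ᶠ z in 𝓝 y, 0 < D.F z :=
      (D.dom.1.continuous.continuousAt).eventually (lt_mem_nhds hy)
    have e1 : ∀ i, pd i (XL lam W D.K i) y =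
        pd i β y * Rig.nn c i y + β y * (Rig.P c i i y / ‖y - c‖) := by
      intro i
      have h1 : XL lam W D.K i =ᶠ[𝓝 y] fun z => β z * Rig.nn c i z :=
        hev.mono fun z hz => eX z hz i
      rw [Vale.Agent.P366.pd_congr h1 i, ((DP.of (k := i) (cdd (cβ y hy.le))).mul
        (Rig.dp_nn hyc i i)).2]
      rfl
    have h2 := hdiv y hy
    simp only [e1, Finset.sum_add_distrib, ← Finset.mul_sum, ← Finset.sum_div,
      Rig.P_tr hyc] at h2
    linarith
  obtain ⟨x, hx, -, -, hyx⟩ := h.polar hL hy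
  set φ : ℝ → ℝ := fun t => β (c + t • x) * t ^ (n - 1) with hφ
  have dφ : ∀ t, k + u < t → HasDerivAt φ 0 t := by
    intro t ht
    have ht0 : 0 < t := hr₀.trans ht
    have hm := h.ray_mem hL hx ht.le
    have hF : 0 < D.F (c + t • x) := h.F_pos hL (by rw [h.norm_ray hx ht.le]; exact ht)
    have h0 : HasFDerivAt β (fderiv ℝ β (c + t • x)) (c + t • x) := (cdd (cβ _ hm)).hasFDerivAt
    have h1 : HasDerivAt (fun t : ℝ => β (c + t • x)) (fderiv ℝ β (c + t • x) x) t := by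
      have h7 := HasFDerivAt.comp_hasDerivAt (l := β) t h0 (ray_diff c x t)
      exact h7
    have h2 := h1.mul (hasDerivAt_pow (n - 1) t)
    have e1 : fderiv ℝ β (c + t • x) x = - (β (c + t • x) * (((n : ℝ) - 1) / t)) := by
      have h4 := hβn _ hF
      rw [h.norm_ray hx ht.le] at h4
      rw [fderiv_eq_sum_pd, ← h4]
      refine Finset.sum_congr rfl fun i _ => ?_
      have e2 : Rig.nn c i (c + t • x) = x i := by
        unfold Rig.nn
        rw [h.norm_ray hx ht.le]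
        simp only [PiLp.add_apply, PiLp.smul_apply, smul_eq_mul, add_sub_cancel_left]
        field_simp
      rw [e2, mul_comm]
    have e3 : fderiv ℝ β (c + t • x) x * t ^ (n - 1) +
        β (c + t • x) * (((n - 1 : ℕ) : ℝ) * t ^ (n - 1 - 1)) = 0 := by
      rw [e1, Nat.cast_sub (by omega), Nat.cast_one,
        show t ^ (n - 1) = t ^ (n - 1 - 1) * t by rw [← pow_succ]; congr 1; omega]
      field_simp
      ring
    rw [e3] at h2
    exact h2
  have cφ : ∀ t, k + u ≤ t → ContinuousAt φ t := fun t ht =>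
    (ContinuousAt.comp (f := fun t : ℝ => c + t • x) (cβ _ (h.ray_mem hL hx ht)).continuousAt
      (ray_cont c x t)).mul (continuousAt_id.pow _)
  have hconst : ∀ t, k + u ≤ t → φ t = φ (k + u) := by
    intro t ht
    rcases ht.lt_or_eq with h1 | h1
    · obtain ⟨z, -, hz⟩ := exists_hasDerivAt_eq_slope φ (fun _ => 0) h1
        (fun w hw => (cφ w hw.1).continuousWithinAt) (fun w hw => dφ w hw.1)
      have : t - (k + u) ≠ 0 := by linarith
      field_simp at hz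
      linarith
    · rw [h1]
  have hr : 0 < ‖y - c‖ := hr₀.trans_le ((h.mem hL).1 hy)
  have e1 := hconst ‖y - c‖ ((h.mem hL).1 hy)
  have e2 : φ (k + u) = ((n : ℝ) - 1) / (k + u) / 2 * (k + u) ^ (n - 1) := by
    have h1 := hbd x hx
    rw [h.U x (H353.N.ne_zero_of_one hx), h.Y hx] at h1
    have h2 := h.lapL_eq hL (h.ray_mem hL hx le_rfl)
    rw [h.norm_ray hx le_rfl] at h2
    rw [hφ]
    simp only [hβ]
    rw [h1, h2, one_mul]
  have e3 : φ ‖y - c‖ = VV lam W D y * (((n : ℝ) - 1) / ‖y - c‖) / 2 * ‖y - c‖ ^ (n - 1) := by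
    rw [hφ]
    simp only [hβ]
    rw [← hyx, h.lapL_eq hL hy]
  rw [e2, e3] at e1
  have e4 : ∀ a : ℝ, a ^ (n - 1) = a ^ (n - 2) * a := fun a => by
    rw [← pow_succ]; congr 1; omega
  rw [e4, e4] at e1
  rw [div_pow, eq_div_iff (pow_ne_zero _ hr.ne')]
  have h5 : (n : ℝ) - 1 ≠ 0 := by linarith
  field_simp at e1
  linarith

/-- `W` is radial -/
theorem Rd.W_rad [hn : Fact (3 ≤ n)] (hL : IsLeafExt C lam W D)
    (ha : ∀ y, 0 < D.F y → ∀ i, acc lam W i y = 0) {x x' : E n} (hx : ‖x‖ = 1) (hx' : ‖x'‖ = 1)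
    {t : ℝ} (ht : k + u ≤ t) : W (c + t • x) = W (c + t • x') := by
  have hr₀ := h.pos
  have key : ∀ t, k + u < t → W (c + t • x) = W (c + t • x') := by
    intro t ht
    have ht0 : 0 < t := hr₀.trans ht
    have hF : ∀ y : E n, ‖y - c‖ = t → 0 < D.F y := fun y hy => h.F_pos hL (by rw [hy]; exact ht)
    refine const_sphere ht0 (fun y hy => cdd (hL.smW y (hF y hy).le)) (fun y hy => ?_)
      (h.norm_ray hx ht.le) (h.norm_ray hx' ht.le)
    have hy0 := hF y hy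
    have P := pt_of hL hy0
    refine ⟨(∑ j, pd j W y * pd j lam y) / t, fun i => ?_⟩
    have h1 := ha y hy0 i
    unfold acc at h1
    have h2 : grd lam W i y = 0 := (div_eq_zero_iff.1 h1).resolve_right
      (mul_ne_zero two_ne_zero (CLam.one_W_pos hL hy0.le).ne')
    rw [P.grd_eq, h.pd_lam hL hy0.le] at h2
    unfold Rig.nn at h2
    rw [hy] at h2
    rw [div_mul_eq_mul_div, ← mul_div_assoc] at *
    linarith
  rcases ht.lt_or_eq with h1 | h1
  · exact key t h1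
  · rw [← h1]
    exact ray_lim (hL.smW _ (h.ray_mem hL hx le_rfl)).continuousAt
      (hL.smW _ (h.ray_mem hL hx' le_rfl)).continuousAt key

/-- `κ` is radial -/
theorem Rd.kap_rad [hn : Fact (3 ≤ n)] (hL : IsLeafExt C lam W D)
    (ha : ∀ y, 0 < D.F y → ∀ i, acc lam W i y = 0)
    (hV : ∀ y, 0 ≤ D.F y → VV lam W D y = ((k + u) / ‖y - c‖) ^ (n - 2))
    {x x' : E n} (hx : ‖x‖ = 1) (hx' : ‖x'‖ = 1) {t : ℝ} (ht : k + u ≤ t) :
    kap lam D.K (c + t • x) = kap lam D.K (c + t • x') := by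
  have ht0 : 0 < t := h.pos.trans_le ht
  have hmem : ∀ y ∈ sphere c t, 0 ≤ D.F y := fun y hy => (h.mem hL).2 (by
    rw [mem_sphere_iff_norm] at hy
    rw [hy]; exact ht)
  have hdir : ∀ y ∈ sphere c t, ∃ z : E n, ‖z‖ = 1 ∧ y = c + t • z := by
    intro y hy
    obtain ⟨z, hz, -, -, hyz⟩ := h.polar hL (hmem y hy)
    rw [mem_sphere_iff_norm] at hy
    rw [hy] at hyz
    exact ⟨z, hz, hyz⟩
  have hsq : ∀ y ∈ sphere c t, kap lam D.K y ^ 2 = kap lam D.K (c + t • x') ^ 2 := by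
    intro y hy
    obtain ⟨z, hz, rfl⟩ := hdir y hy
    have h1 := hV _ (h.ray_mem hL hz ht)
    have h2 := hV _ (h.ray_mem hL hx' ht)
    rw [h.norm_ray hz ht] at h1
    rw [h.norm_ray hx' ht] at h2
    have h3 := h.W_rad hL ha hz hx' ht
    unfold VV at h1 h2
    rw [h3] at h1
    linarith
  have hmx : c + t • x ∈ sphere c t := by rw [mem_sphere_iff_norm]; exact h.norm_ray hx ht
  have hmx' : c + t • x' ∈ sphere c t := by rw [mem_sphere_iff_norm]; exact h.norm_ray hx' ht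
  by_cases h0 : kap lam D.K (c + t • x') = 0
  · have h1 := hsq _ hmx
    rw [h0, zero_pow two_ne_zero] at h1
    rw [h0]
    exact pow_eq_zero_iff two_ne_zero |>.1 h1
  · have hc : IsPreconnected (sphere c t) := isPreconnected_sphere one_lt_rank c t
    rcases hc.eq_or_eq_neg_of_sq_eq (f := kap lam D.K) (g := fun _ => kap lam D.K (c + t • x'))
      (fun y hy => (h.kap_cd hL (hmem y hy)).continuousAt.continuousWithinAt)
      continuousOn_const (fun y hy => hsq y hy) (fun _ => h0) with h1 | h1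
    · exact h1 hmx
    · exfalso
      have h2 := h1 hmx'
      simp only [Pi.neg_apply] at h2
      exact h0 (by linarith)

end Round

/-- **[E3]**: in the case of equality the functions `W` and `κ` are radial. -/
theorem rad_of [hn : Fact (3 ≤ n)] (hL : IsLeafExt C lam W D) {k : ℝ} {c : E n}
    (hH : ∀ x, x ≠ 0 → C.H x = k * ‖x‖ + ∑ i, c i * x i)
    (hdiv : ∀ y, 0 < D.F y → ∑ i, pd i (XL lam W D.K i) y = 0)
    (hα : ∀ y, 0 < D.F y → ∀ i, alf lam W D.K i y = 0)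
    (ha : ∀ y, 0 < D.F y → ∀ i, acc lam W i y = 0)
    (hbd : ∀ x : E n, ‖x‖ = 1 → W (KSN.Y C.H x (C.U x)) / (1 + W (KSN.Y C.H x (C.U x))) +
      kap lam D.K (KSN.Y C.H x (C.U x)) ^ 2 = 1) :
    ∃ r₀, 0 < r₀ ∧ (∀ y, 0 ≤ D.F y ↔ r₀ ≤ ‖y - c‖) ∧ (∀ y, r₀ < ‖y - c‖ → 0 < D.F y) ∧
      (∀ y, 0 ≤ D.F y → lam y = ‖y - c‖ - k) ∧ (∀ x : E n, ‖x‖ = 1 →
        KSN.Y C.H x (C.U x) = c + r₀ • x) ∧
      ∃ w q : ℝ → ℝ, (∀ r, r₀ ≤ r → ContDiffAt ℝ ∞ w r ∧ ContDiffAt ℝ ∞ q r) ∧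
        ∀ y, 0 ≤ D.F y → W y = w ‖y - c‖ ∧ kap lam D.K y = q ‖y - c‖ ∧
          W y / (1 + W y) + kap lam D.K y ^ 2 = (r₀ / ‖y - c‖) ^ (n - 2) := by
  obtain ⟨u, hu⟩ := hL.cst
  have h : Rd C k u c := ⟨hH, hu⟩
  have hV : ∀ y, 0 ≤ D.F y → VV lam W D y = ((k + u) / ‖y - c‖) ^ (n - 2) := fun y hy =>
    h.VV_eq hL hdiv hα ha hbd hy
  have i0 : Fin n := ⟨0, by have := hn.out; omega⟩
  set e : E n := EuclideanSpace.single i0 1 with he
  have he1 : ‖e‖ = 1 := by rw [he, PiLp.norm_single, norm_one]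
  have hray : ∀ r : ℝ, ContDiffAt ℝ ∞ (fun r : ℝ => c + r • e) r := fun r =>
    contDiffAt_const.add (contDiffAt_id.smul contDiffAt_const)
  refine ⟨k + u, h.pos, fun y => h.mem hL, fun y hy => h.F_pos hL hy, fun y hy => h.lam_eq hL hy,
    fun x hx => by rw [hu x (H353.N.ne_zero_of_one hx), h.Y hx], fun r => W (c + r • e),
    fun r => kap lam D.K (c + r • e), fun r hr => ⟨?_, ?_⟩, fun y hy => ⟨?_, ?_, hV y hy⟩⟩
  · exact ContDiffAt.comp (g := W) (f := fun r : ℝ => c + r • e) r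
      (hL.smW _ (h.ray_mem hL he1 hr)) (hray r)
  · exact ContDiffAt.comp (g := kap lam D.K) (f := fun r : ℝ => c + r • e) r
      (h.kap_cd hL (h.ray_mem hL he1 hr)) (hray r)
  · obtain ⟨x, hx, -, -, hyx⟩ := h.polar hL hy
    have := h.W_rad hL ha hx he1 ((h.mem hL).1 hy)
    rwa [← hyx] at this
  · obtain ⟨x, hx, -, -, hyx⟩ := h.polar hL hy
    have := h.kap_rad hL ha hV hx he1 ((h.mem hL).1 hy)
    rwa [← hyx] at this

end Vale.Agent.P366.CL
end
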